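import Vale.Agent.P184K32.Defs

/-! A trace on a ring induces a homomorphism on `K_0`. -/

namespace Vale.Agent.P184K32

open MulOpposite

universe u

variable {R : Type u} [Ring R] {V : Type*} [AddCommGroup V] {l m n : ℕ}

/-- The matrix of a homomorphism of free right modules. -/
def mat (f : (Fin n → R) →ₗ[Rᵐᵒᵖ] (Fin m → R)) : Matrix (Fin m) (Fin n) R :=
  fun j k => f (Pi.single k 1) j

theorem mat_mulVec (f : (Fin n → R) →ₗ[Rᵐᵒᵖ] (Fin m → R)) (v : Fin n → R) :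
    (mat f).mulVec v = f v := by
  have h : v = ∑ k, op (v k) • (Pi.single k (1 : R) : Fin n → R) := by
    ext j
    simp [Pi.single_apply, Finset.sum_apply]
  conv_rhs => rw [h]
  rw [map_sum]
  ext j
  simp [mat, Matrix.mulVec, dotProduct, Finset.sum_apply]

theorem mat_comp (f : (Fin m → R) →ₗ[Rᵐᵒᵖ] (Fin l → R)) (g : (Fin n → R) →ₗ[Rᵐᵒᵖ] (Fin m → R)) :
    mat (f ∘ₗ g) = mat f * mat g := by
  ext j k
  change f (g (Pi.single k 1)) j = _
  rw [← mat_mulVec f]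
  rfl

theorem mat_add (f g : (Fin n → R) →ₗ[Rᵐᵒᵖ] (Fin m → R)) : mat (f + g) = mat f + mat g := rfl

theorem mat_bilin (e : Matrix (Fin m) (Fin n) R) : mat (Matrix.mulVecBilin R Rᵐᵒᵖ e) = e := by
  ext j k
  simp [mat]

/-- The trace of a matrix. -/
def T (τ : R →+ V) (M : Matrix (Fin n) (Fin n) R) : V := ∑ j, τ (M j j)

theorem T_add (τ : R →+ V) (M N : Matrix (Fin n) (Fin n) R) : T τ (M + N) = T τ M + T τ N := by
  simp [T, Finset.sum_add_distrib]

theorem T_comm (τ : R →+ V) (hτ : ∀ a b, τ (a * b) = τ (b * a)) (x : Matrix (Fin m) (Fin n) R)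
    (y : Matrix (Fin n) (Fin m) R) : T τ (x * y) = T τ (y * x) := by
  simp only [T, Matrix.mul_apply, map_sum]
  rw [Finset.sum_comm]
  exact Finset.sum_congr rfl fun _ _ => Finset.sum_congr rfl fun _ _ => hτ _ _

variable (R) in
/-- A presentation of `M` as a direct summand of a free module. -/
structure Split (M : Type u) [AddCommGroup M] [Module Rᵐᵒᵖ M] where
  q : ℕ
  i : M →ₗ[Rᵐᵒᵖ] (Fin q → R)
  p : (Fin q → R) →ₗ[Rᵐᵒᵖ] M
  h : ∀ x, p (i x) = x

variable {M : Type u} [AddCommGroup M] [Module Rᵐᵒᵖ M]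

/-- The trace of the idempotent of a presentation. -/
def Split.t (s : Split R M) (τ : R →+ V) : V := T τ (mat (s.i ∘ₗ s.p))

theorem Split.t_eq (τ : R →+ V) (hτ : ∀ a b, τ (a * b) = τ (b * a)) (s s' : Split R M) :
    s.t τ = s'.t τ := by
  have h1 : s.i ∘ₗ s.p = (s.i ∘ₗ s'.p) ∘ₗ (s'.i ∘ₗ s.p) := by
    refine LinearMap.ext fun v => ?_
    simp [s'.h]
  have h2 : s'.i ∘ₗ s'.p = (s'.i ∘ₗ s.p) ∘ₗ (s.i ∘ₗ s'.p) := by
    refine LinearMap.ext fun v => ?_
    simp [s.h]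
  rw [Split.t, Split.t, h1, h2, mat_comp, mat_comp, T_comm τ hτ]

/-- The free right module `R^n` and the free left module over the opposite ring. -/
def opE (R : Type u) [Ring R] (n : ℕ) : (Fin n → R) ≃ₗ[Rᵐᵒᵖ] (Fin n → Rᵐᵒᵖ) :=
  LinearEquiv.piCongrRight fun _ => opLinearEquiv Rᵐᵒᵖ

theorem exists_split (P : Proj R) : Nonempty (Split R P.M) := by
  have := P.fg
  have := P.proj
  obtain ⟨q, f, g, -, -, h⟩ := Module.Finite.exists_comp_eq_id_of_projective Rᵐᵒᵖ P.M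
  exact ⟨⟨q, (opE R q).symm.toLinearMap ∘ₗ g, f ∘ₗ (opE R q).toLinearMap, fun x => by
    simpa using LinearMap.congr_fun h x⟩⟩

theorem bilin_idem {e : Matrix (Fin n) (Fin n) R} (he : IsIdempotentElem e)
    (x : LinearMap.range (Matrix.mulVecBilin R Rᵐᵒᵖ e)) :
    (Matrix.mulVecBilin R Rᵐᵒᵖ e).rangeRestrict x = x := by
  obtain ⟨_, v, rfl⟩ := x
  refine Subtype.ext ?_
  change e.mulVec (e.mulVec v) = e.mulVec v
  rw [Matrix.mulVec_mulVec, he.eq]

theorem exists_proj {e : Matrix (Fin n) (Fin n) R} (he : IsIdempotentElem e) :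
    ∃ P : Proj R, IsImage P e := by
  have : Module.Finite Rᵐᵒᵖ (Fin n → R) := Module.Finite.equiv (opE R n).symm
  have : Module.Projective Rᵐᵒᵖ (Fin n → R) := Module.Projective.of_equiv (opE R n).symm
  have hp : Module.Projective Rᵐᵒᵖ (LinearMap.range (Matrix.mulVecBilin R Rᵐᵒᵖ e)) :=
    Module.Projective.of_split (LinearMap.range (Matrix.mulVecBilin R Rᵐᵒᵖ e)).subtype
      (Matrix.mulVecBilin R Rᵐᵒᵖ e).rangeRestrict (LinearMap.ext (bilin_idem he))
  exact ⟨⟨ModuleCat.of Rᵐᵒᵖ (LinearMap.range (Matrix.mulVecBilin R Rᵐᵒᵖ e)),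
    Module.Finite.range _, hp⟩, ⟨LinearEquiv.refl _ _⟩⟩

theorem exists_idem (P : Proj R) :
    ∃ (q : ℕ) (e : Matrix (Fin q) (Fin q) R), IsIdempotentElem e ∧ IsImage P e := by
  obtain ⟨s⟩ := exists_split P
  refine ⟨s.q, mat (s.i ∘ₗ s.p), ?_, ?_⟩
  · rw [IsIdempotentElem, ← mat_comp]
    congr 1
    refine LinearMap.ext fun v => ?_
    simp [s.h]
  · have h1 : Matrix.mulVecBilin R Rᵐᵒᵖ (mat (s.i ∘ₗ s.p)) = s.i ∘ₗ s.p :=
      LinearMap.ext fun v => mat_mulVec _ v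
    have h2 : LinearMap.range s.i =
        LinearMap.range (Matrix.mulVecBilin R Rᵐᵒᵖ (mat (s.i ∘ₗ s.p))) := by
      rw [h1, LinearMap.range_comp_of_range_eq_top]
      exact LinearMap.range_eq_top.mpr fun x => ⟨s.i x, s.h x⟩
    exact ⟨(LinearEquiv.ofInjective s.i (Function.LeftInverse.injective s.h)).trans
      (LinearEquiv.ofEq _ _ h2)⟩

theorem exists_hom (τ : R →+ V) (hτ : ∀ a b, τ (a * b) = τ (b * a)) :
    ∃ HS : K0 R →+ V, ∀ (P : Proj R) (q : ℕ) (e : Matrix (Fin q) (Fin q) R),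
      IsIdempotentElem e → IsImage P e → HS (cls P) = T τ e := by
  let t : Proj R → V := fun P => (Classical.choice (exists_split P)).t τ
  have ht : ∀ (P : Proj R) (s : Split R P.M), t P = s.t τ := fun P s => Split.t_eq τ hτ _ s
  have hk : AddSubgroup.closure (rels R) ≤ (FreeAbelianGroup.lift t).ker := by
    rw [AddSubgroup.closure_le]
    rintro _ ⟨P, P', P'', ⟨φ⟩, rfl⟩
    obtain ⟨s⟩ := exists_split P
    let s' : Split R P'.M := ⟨s.q, s.i ∘ₗ φ.symm.toLinearMap ∘ₗ LinearMap.inl _ _ _,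
      LinearMap.fst _ _ _ ∘ₗ φ.toLinearMap ∘ₗ s.p, fun x => by simp [s.h]⟩
    let s'' : Split R P''.M := ⟨s.q, s.i ∘ₗ φ.symm.toLinearMap ∘ₗ LinearMap.inr _ _ _,
      LinearMap.snd _ _ _ ∘ₗ φ.toLinearMap ∘ₗ s.p, fun x => by simp [s.h]⟩
    have h : s.i ∘ₗ s.p = s'.i ∘ₗ s'.p + s''.i ∘ₗ s''.p := by
      refine LinearMap.ext fun v => ?_
      change s.i (s.p v) = s.i (φ.symm ((φ (s.p v)).1, 0)) + s.i (φ.symm (0, (φ (s.p v)).2))
      rw [← map_add, ← map_add]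
      simp
    have h' : s.t τ = s'.t τ + s''.t τ := by
      rw [Split.t, h, mat_add, T_add]
      rfl
    simp only [SetLike.mem_coe, AddMonoidHom.mem_ker, map_sub, FreeAbelianGroup.lift_apply_of]
    rw [ht P s, ht P' s', ht P'' s'', h']
    abel
  refine ⟨QuotientAddGroup.lift _ (FreeAbelianGroup.lift t) hk, ?_⟩
  rintro P q e he ⟨φ⟩
  let s : Split R P.M := ⟨q, (LinearMap.range (Matrix.mulVecBilin R Rᵐᵒᵖ e)).subtype ∘ₗ
    φ.toLinearMap, φ.symm.toLinearMap ∘ₗ (Matrix.mulVecBilin R Rᵐᵒᵖ e).rangeRestrict, fun x => by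
      change φ.symm ((Matrix.mulVecBilin R Rᵐᵒᵖ e).rangeRestrict (φ x)) = x
      rw [bilin_idem he, φ.symm_apply_apply]⟩
  have h : s.i ∘ₗ s.p = Matrix.mulVecBilin R Rᵐᵒᵖ e := by
    refine LinearMap.ext fun v => ?_
    change (φ (φ.symm ((Matrix.mulVecBilin R Rᵐᵒᵖ e).rangeRestrict v)) : Fin q → R) = _
    rw [φ.apply_symm_apply]
    rfl
  change FreeAbelianGroup.lift t (FreeAbelianGroup.of P) = _
  rw [FreeAbelianGroup.lift_apply_of, ht P s, Split.t, h, mat_bilin]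

theorem K0_ind {p : K0 R → Prop} (h0 : p 0) (hc : ∀ P, p (cls P)) (hn : ∀ x, p x → p (-x))
    (ha : ∀ x y, p x → p y → p (x + y)) (x : K0 R) : p x := by
  obtain ⟨y, rfl⟩ := QuotientAddGroup.mk_surjective x
  induction y using FreeAbelianGroup.induction_on with
  | zero => exact h0
  | of P => exact hc P
  | neg P h => exact hn _ h
  | add x y hx hy => exact ha _ _ hx hy

end Vale.Agent.P184K32
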