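import Mathlib

/-! The Banach algebra `ℓ¹(G)`, the group `K_0` of a ring and the Hattori-Stallings trace. -/

namespace Vale.Agent.P184K32

universe u

section Ring

variable (R : Type u) [Ring R]

/-- A finitely generated projective right `R`-module. -/
structure Proj : Type (u + 1) where
  M : ModuleCat.{u} Rᵐᵒᵖ
  fg : Module.Finite Rᵐᵒᵖ M
  proj : Module.Projective Rᵐᵒᵖ M

/-- The relations `[P] - [P'] - [P'']` for `P ≅ P' ⊕ P''`. -/
def rels : Set (FreeAbelianGroup (Proj R)) :=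
  {x | ∃ P P' P'' : Proj R, Nonempty (P.M ≃ₗ[Rᵐᵒᵖ] P'.M × P''.M) ∧
    x = FreeAbelianGroup.of P - FreeAbelianGroup.of P' - FreeAbelianGroup.of P''}

/-- `K_0(R)`: the Grothendieck group of finitely generated projective right `R`-modules. -/
abbrev K0 : Type (u + 1) := FreeAbelianGroup (Proj R) ⧸ AddSubgroup.closure (rels R)

variable {R}

/-- The class `[P]` in `K_0(R)`. -/
def cls (P : Proj R) : K0 R := QuotientAddGroup.mk (FreeAbelianGroup.of P)

/-- `P` is isomorphic to the right module `e R^q`. -/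
def IsImage (P : Proj R) {q : ℕ} (e : Matrix (Fin q) (Fin q) R) : Prop :=
  Nonempty (P.M ≃ₗ[Rᵐᵒᵖ] LinearMap.range (Matrix.mulVecBilin R Rᵐᵒᵖ e))

end Ring

variable {G A : Type u} [Group G] [NormedRing A] [NormedAlgebra ℂ A]

/-- `c` identifies the normed algebra `A` with `ℓ¹(G)`: the norm is the `ℓ¹` norm, every
absolutely summable function occurs, and the product is the convolution. -/
structure IsL1 (c : A →ₗ[ℂ] G → ℂ) : Prop where
  norm : ∀ a, HasSum (fun g => ‖c a g‖) ‖a‖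
  surj : ∀ f : G → ℂ, (Summable fun g => ‖f g‖) → ∃ a, c a = f
  mul : ∀ a b g, HasSum (fun h => c a h * c b (h⁻¹ * g)) (c (a * b) g)

/-- The Hattori-Stallings coefficient `τ_C(e) = ∑_{g ∈ C} ∑_i e_ii(g)`. -/
noncomputable def tau (c : A →ₗ[ℂ] G → ℂ) {q : ℕ} (e : Matrix (Fin q) (Fin q) A)
    (C : ConjClasses G) : ℂ :=
  ∑' g : C.carrier, ∑ i, c (e i i) g

/-- `f` lies in `⊕_{C ∈ C_fin(G)} ℂ[C]`: it vanishes outside a finite set of conjugacy classes of
elements of finite order. -/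
def InFin (f : ConjClasses G → ℂ) : Prop :=
  ∃ F : Finset (ConjClasses G), (∀ C ∈ F, ∀ g ∈ C.carrier, IsOfFinOrder g) ∧ ∀ C ∉ F, f C = 0

/-- `HS` is a homomorphism `K_0(ℓ¹(G)) → ℓ¹(C(G))` sending the class of `e ℓ¹(G)^q` to `τ(e)`. -/
def IsHS (c : A →ₗ[ℂ] G → ℂ) (HS : K0 A →+ ConjClasses G → ℂ) : Prop :=
  (∀ x, Summable fun C => ‖HS x C‖) ∧
    ∀ (P : Proj A) (q : ℕ) (e : Matrix (Fin q) (Fin q) A), IsIdempotentElem e → IsImage P e →
      HS (cls P) = tau c e

end Vale.Agent.P184K32
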