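import Vale.Agent.P184K32.Defs

/-! The Banach algebra `ℓ¹(G)` exists, and the class sums are traces on it. -/

namespace Vale.Agent.P184K32

universe u

variable {G : Type u} [Group G]

/-- The change of variables `(g, h) ↦ (h, h⁻¹ g)`. -/
def shear (G : Type u) [Group G] : G × G ≃ G × G where
  toFun p := (p.2, p.2⁻¹ * p.1)
  invFun p := (p.1 * p.2, p.1)
  left_inv p := by simp
  right_inv p := by simp

theorem summable_shear {a b : G → ℂ} (ha : Summable fun g => ‖a g‖) (hb : Summable fun g => ‖b g‖) :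
    Summable fun p : G × G => ‖a p.2 * b (p.2⁻¹ * p.1)‖ :=
  (shear G).summable_iff.mpr (ha.mul_norm hb)

theorem summable_fib {a b : G → ℂ} (ha : Summable fun g => ‖a g‖) (hb : Summable fun g => ‖b g‖)
    (g : G) : Summable fun h => ‖a h * b (h⁻¹ * g)‖ :=
  (summable_shear ha hb).prod_factor g

/-- Convolution. -/
noncomputable def conv (a b : G → ℂ) (g : G) : ℂ := ∑' h, a h * b (h⁻¹ * g)

theorem hasSum_norm_fib {a b : G → ℂ} (ha : Summable fun g => ‖a g‖)
    (hb : Summable fun g => ‖b g‖) :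
    HasSum (fun g => ∑' h, ‖a h * b (h⁻¹ * g)‖) ((∑' g, ‖a g‖) * ∑' g, ‖b g‖) := by
  have h1 : HasSum (fun p : G × G => ‖a p.1‖ * ‖b p.2‖) ((∑' g, ‖a g‖) * ∑' g, ‖b g‖) :=
    ha.hasSum.mul hb.hasSum (ha.mul_of_nonneg hb (fun _ => norm_nonneg _) fun _ => norm_nonneg _)
  have h2 : HasSum (fun p : G × G => ‖a p.2 * b (p.2⁻¹ * p.1)‖) ((∑' g, ‖a g‖) * ∑' g, ‖b g‖) := by
    have := (shear G).hasSum_iff.mpr h1
    refine this.congr_fun ?_
    intro p
    exact norm_mul _ _
  exact h2.prod_fiberwise fun g => (summable_fib ha hb g).hasSum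

theorem norm_conv_le {a b : G → ℂ} (ha : Summable fun g => ‖a g‖) (hb : Summable fun g => ‖b g‖)
    (g : G) : ‖conv a b g‖ ≤ ∑' h, ‖a h * b (h⁻¹ * g)‖ :=
  norm_tsum_le_tsum_norm (summable_fib ha hb g)

theorem summable_conv {a b : G → ℂ} (ha : Summable fun g => ‖a g‖) (hb : Summable fun g => ‖b g‖) :
    Summable fun g => ‖conv a b g‖ :=
  Summable.of_nonneg_of_le (fun _ => norm_nonneg _) (norm_conv_le ha hb)
    (hasSum_norm_fib ha hb).summable

theorem tsum_conv_le {a b : G → ℂ} (ha : Summable fun g => ‖a g‖) (hb : Summable fun g => ‖b g‖) :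
    ∑' g, ‖conv a b g‖ ≤ (∑' g, ‖a g‖) * ∑' g, ‖b g‖ :=
  hasSum_le (norm_conv_le ha hb) (summable_conv ha hb).hasSum (hasSum_norm_fib ha hb)

/-- Pairing a convolution with a bounded function. -/
theorem hasSum_pair {a b χ : G → ℂ} (ha : Summable fun g => ‖a g‖) (hb : Summable fun g => ‖b g‖)
    {K : ℝ} (hχ : ∀ g, ‖χ g‖ ≤ K) :
    Summable (fun p : G × G => a p.1 * b p.2 * χ (p.1 * p.2)) ∧
    HasSum (fun g => conv a b g * χ g) (∑' p : G × G, a p.1 * b p.2 * χ (p.1 * p.2)) := by
  have h1 : Summable (fun p : G × G => a p.1 * b p.2 * χ (p.1 * p.2)) := by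
    refine Summable.of_norm_bounded ((ha.mul_norm hb).mul_right K) fun p => ?_
    rw [norm_mul]
    exact mul_le_mul_of_nonneg_left (hχ _) (norm_nonneg _)
  refine ⟨h1, ?_⟩
  have h2 : HasSum (fun p : G × G => a p.2 * b (p.2⁻¹ * p.1) * χ p.1)
      (∑' p : G × G, a p.1 * b p.2 * χ (p.1 * p.2)) := by
    have := (shear G).hasSum_iff.mpr h1.hasSum
    refine this.congr_fun ?_
    intro p
    simp [shear]
  exact h2.prod_fiberwise fun g => (summable_fib ha hb g).of_norm.hasSum.mul_right _

theorem conv_assoc {a b c : G → ℂ} (ha : Summable fun g => ‖a g‖) (hb : Summable fun g => ‖b g‖)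
    (hc : Summable fun g => ‖c g‖) : conv (conv a b) c = conv a (conv b c) := by
  funext g
  have hK : ∀ h : G, ‖c (h⁻¹ * g)‖ ≤ ∑' k, ‖c k‖ := fun h =>
    hc.le_tsum _ fun _ _ => norm_nonneg _
  obtain ⟨h1, h2⟩ := hasSum_pair (χ := fun h => c (h⁻¹ * g)) ha hb hK
  have h3 : HasSum (fun h => a h * conv b c (h⁻¹ * g))
      (∑' p : G × G, a p.1 * b p.2 * c ((p.1 * p.2)⁻¹ * g)) := by
    refine h1.hasSum.prod_fiberwise fun h => ?_
    have := (summable_fib hb hc (h⁻¹ * g)).of_norm.hasSum.mul_left (a h)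
    refine this.congr_fun ?_
    intro k
    simp [mul_assoc]
  exact h2.tsum_eq.trans h3.tsum_eq.symm

theorem pair_comm {a b χ : G → ℂ} (ha : Summable fun g => ‖a g‖) (hb : Summable fun g => ‖b g‖)
    {K : ℝ} (hχ : ∀ g, ‖χ g‖ ≤ K) (hc : ∀ g h, χ (g * h) = χ (h * g)) :
    ∑' g, conv a b g * χ g = ∑' g, conv b a g * χ g := by
  rw [(hasSum_pair ha hb hχ).2.tsum_eq, (hasSum_pair hb ha hχ).2.tsum_eq,
    ← (Equiv.prodComm G G).tsum_eq]
  refine tsum_congr fun p => ?_
  simp only [Equiv.prodComm_apply, Prod.fst_swap, Prod.snd_swap]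
  rw [hc p.2 p.1, mul_comm (a p.2)]

/-- A copy of the Banach space `ℓ¹(G)`. -/
def L (G : Type u) : Type u := lp (fun _ : G => ℂ) 1

noncomputable instance : NormedAddCommGroup (L G) :=
  inferInstanceAs (NormedAddCommGroup (lp (fun _ : G => ℂ) 1))

noncomputable instance : NormedSpace ℂ (L G) :=
  inferInstanceAs (NormedSpace ℂ (lp (fun _ : G => ℂ) 1))

instance : CompleteSpace (L G) := inferInstanceAs (CompleteSpace (lp (fun _ : G => ℂ) 1))

/-- The coefficients. -/
def L.c (G : Type u) [Group G] : L G →ₗ[ℂ] G → ℂ where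
  toFun a := (show lp (fun _ : G => ℂ) 1 from a)
  map_add' _ _ := rfl
  map_smul' _ _ := rfl

theorem L.hasSum (a : L G) : HasSum (fun g => ‖L.c G a g‖) ‖a‖ := by
  have := lp.hasSum_norm (E := fun _ : G => ℂ) (p := 1) (by simp) a
  simp only [ENNReal.toReal_one, Real.rpow_one] at this
  exact this

theorem L.sm (a : L G) : Summable fun g => ‖L.c G a g‖ := a.hasSum.summable

theorem L.ext {a b : L G} (h : L.c G a = L.c G b) : a = b := lp.ext h

/-- The element with given coefficients. -/
def L.mk (f : G → ℂ) (hf : Summable fun g => ‖f g‖) : L G :=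
  (⟨f, memℓp_gen (by simpa using hf)⟩ : lp (fun _ : G => ℂ) 1)

theorem L.c_mk (f : G → ℂ) (hf : Summable fun g => ‖f g‖) : L.c G (L.mk f hf) = f := rfl

open Classical in
/-- The unit. -/
noncomputable def delta (G : Type u) [Group G] : G → ℂ := fun g => if g = 1 then 1 else 0

theorem delta_sm : Summable fun g => ‖delta G g‖ :=
  summable_of_ne_finset_zero (s := {1}) fun g hg => by
    simp only [Finset.mem_singleton] at hg
    simp [delta, hg]

theorem delta_conv (a : G → ℂ) : conv (delta G) a = a := by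
  funext g
  rw [conv, tsum_eq_single 1 fun h hh => by simp [delta, hh]]
  simp [delta]

theorem conv_delta (a : G → ℂ) : conv a (delta G) = a := by
  funext g
  rw [conv, tsum_eq_single g fun h hh => by simp [delta, inv_mul_eq_one, hh]]
  simp [delta]

noncomputable instance : Mul (L G) :=
  ⟨fun a b => L.mk (conv (L.c G a) (L.c G b)) (summable_conv a.sm b.sm)⟩

noncomputable instance : One (L G) := ⟨L.mk (delta G) delta_sm⟩

theorem L.c_mul (a b : L G) : L.c G (a * b) = conv (L.c G a) (L.c G b) := rfl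

theorem L.c_one : L.c G 1 = delta G := rfl

noncomputable instance : NormedRing (L G) :=
  { (inferInstance : NormedAddCommGroup (L G)), (inferInstance : Mul (L G)),
    (inferInstance : One (L G)) with
    mul_assoc := fun a b c => L.ext (conv_assoc a.sm b.sm c.sm)
    one_mul := fun a => L.ext (delta_conv _)
    mul_one := fun a => L.ext (conv_delta _)
    zero_mul := fun a => L.ext (by
      funext g
      simp [L.c_mul, conv])
    mul_zero := fun a => L.ext (by
      funext g
      simp [L.c_mul, conv])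
    left_distrib := fun a b c => L.ext (by
      funext g
      simp only [L.c_mul, map_add, conv, Pi.add_apply, mul_add]
      exact (summable_fib a.sm b.sm g).of_norm.tsum_add (summable_fib a.sm c.sm g).of_norm)
    right_distrib := fun a b c => L.ext (by
      funext g
      simp only [L.c_mul, map_add, conv, Pi.add_apply, add_mul]
      exact (summable_fib a.sm c.sm g).of_norm.tsum_add (summable_fib b.sm c.sm g).of_norm)
    norm_mul_le := fun a b => by
      rw [← (a * b).hasSum.tsum_eq, ← a.hasSum.tsum_eq, ← b.hasSum.tsum_eq]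
      exact tsum_conv_le a.sm b.sm }

noncomputable instance : NormedAlgebra ℂ (L G) :=
  { Algebra.ofModule (R := ℂ) (A := L G)
      (fun r a b => L.ext (by
        funext g
        simp only [L.c_mul, map_smul, conv, Pi.smul_apply, smul_eq_mul, mul_assoc]
        exact tsum_mul_left))
      (fun r a b => L.ext (by
        funext g
        simp only [L.c_mul, map_smul, conv, Pi.smul_apply, smul_eq_mul, mul_left_comm _ r]
        exact tsum_mul_left)) with
    norm_smul_le := fun r a => norm_smul_le r a }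

theorem exists_l1 (G : Type u) [Group G] :
    ∃ (A : Type u) (_ : NormedRing A) (_ : NormedAlgebra ℂ A) (_ : CompleteSpace A)
      (c : A →ₗ[ℂ] G → ℂ), IsL1 c :=
  ⟨L G, inferInstance, inferInstance, inferInstance, L.c G, L.hasSum,
    fun f hf => ⟨L.mk f hf, rfl⟩, fun a b g => (summable_fib a.sm b.sm g).of_norm.hasSum⟩

end Vale.Agent.P184K32
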