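import Vale.Agent.P184K32.Alg
import Vale.Agent.P184K32.L1
import Vale.Agent.P184Z.Out.Core

/-! The `ℓ¹`-Bass conjecture in terms of `K_0(ℓ¹(G))`. -/

namespace Vale.Agent.P184K32

universe u

variable {G A : Type u} [Group G] [NormedRing A] [NormedAlgebra ℂ A] {c : A →ₗ[ℂ] G → ℂ}

theorem IsL1.sm (h : IsL1 c) (a : A) : Summable fun g => ‖c a g‖ := (h.norm a).summable

theorem IsL1.c_mul (h : IsL1 c) (a b : A) : c (a * b) = conv (c a) (c b) :=
  funext fun g => (h.mul a b g).tsum_eq.symm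

theorem IsL1.sm_sub (h : IsL1 c) (a : A) (C : ConjClasses G) :
    Summable fun g : C.carrier => c a g :=
  (h.sm a).of_norm.subtype _

/-- The class sums. -/
noncomputable def IsL1.tr (h : IsL1 c) : A →+ ConjClasses G → ℂ where
  toFun a C := ∑' g : C.carrier, c a g
  map_zero' := by
    funext C
    simp
  map_add' a b := by
    funext C
    simp only [map_add, Pi.add_apply]
    exact (h.sm_sub a C).tsum_add (h.sm_sub b C)

theorem IsL1.tr_eq (h : IsL1 c) (a : A) (C : ConjClasses G) :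
    h.tr a C = ∑' g, c a g * C.carrier.indicator 1 g := by
  change ∑' g : C.carrier, c a g = _
  rw [tsum_subtype C.carrier (c a)]
  refine tsum_congr fun g => ?_
  by_cases hg : g ∈ C.carrier <;> simp [hg]

theorem IsL1.tr_comm (h : IsL1 c) (a b : A) : h.tr (a * b) = h.tr (b * a) := by
  funext C
  rw [h.tr_eq, h.tr_eq, h.c_mul, h.c_mul]
  refine pair_comm (K := 1) (h.sm a) (h.sm b) (fun g => ?_) fun g k => ?_
  · by_cases hg : g ∈ C.carrier <;> simp [hg]
  · have e : ConjClasses.mk (g * k) = ConjClasses.mk (k * g) :=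
      ConjClasses.mk_eq_mk_iff_isConj.mpr (isConj_iff.mpr ⟨g⁻¹, by simp [mul_assoc]⟩)
    have : g * k ∈ C.carrier ↔ k * g ∈ C.carrier := by
      rw [ConjClasses.mem_carrier_iff_mk_eq, ConjClasses.mem_carrier_iff_mk_eq, e]
    by_cases hg : k * g ∈ C.carrier <;> simp [hg, this]

theorem IsL1.T_eq (h : IsL1 c) {q : ℕ} (e : Matrix (Fin q) (Fin q) A) : T h.tr e = tau c e := by
  funext C
  rw [T, Finset.sum_apply, tau, Summable.tsum_finsetSum fun i _ => h.sm_sub (e i i) C]
  rfl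

theorem IsL1.bass (h : IsL1 c) {q : ℕ} {e : Matrix (Fin q) (Fin q) A} (he : IsIdempotentElem e) :
    InFin (tau c e) := by
  refine Vale.Agent.P184Z.Out.bassUn G q (fun i j => c (e i j))
    ⟨fun i j => h.sm _, funext fun i => funext fun j => funext fun g => ?_⟩
  change ∑ k, ∑' x, c (e i k) x * c (e k j) (x⁻¹ * g) = c (e i j) g
  conv_rhs => rw [← he.eq, Matrix.mul_apply, map_sum, Finset.sum_apply]
  exact Finset.sum_congr rfl fun k _ => (h.mul _ _ g).tsum_eq

theorem inFin_hom (HS : K0 A →+ ConjClasses G → ℂ) (h : ∀ P, InFin (HS (cls P))) (x : K0 A) :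
    InFin (HS x) := by
  classical
  refine K0_ind (p := fun x => InFin (HS x)) ⟨∅, by simp, by simp⟩ h ?_ ?_ x
  · rintro x ⟨F, h1, h2⟩
    exact ⟨F, h1, fun C hC => by simp [h2 C hC]⟩
  · rintro x y ⟨F, h1, h2⟩ ⟨F', h1', h2'⟩
    refine ⟨F ∪ F', fun C hC => (Finset.mem_union.mp hC).elim (h1 C) (h1' C), fun C hC => ?_⟩
    rw [Finset.mem_union, not_or] at hC
    simp [h2 C hC.1, h2' C hC.2]

theorem IsL1.inFin (h : IsL1 c) (HS : K0 A →+ ConjClasses G → ℂ)
    (hH : ∀ (P : Proj A) (q : ℕ) (e : Matrix (Fin q) (Fin q) A), IsIdempotentElem e →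
      IsImage P e → HS (cls P) = tau c e) (x : K0 A) : InFin (HS x) :=
  inFin_hom HS (fun P => by
    obtain ⟨q, e, he, hP⟩ := exists_idem P
    rw [hH P q e he hP]
    exact h.bass he) x

theorem IsL1.existsUnique (h : IsL1 c) : ∃! HS, IsHS c HS := by
  obtain ⟨HS, hH⟩ := exists_hom h.tr h.tr_comm
  have hH' : ∀ (P : Proj A) (q : ℕ) (e : Matrix (Fin q) (Fin q) A), IsIdempotentElem e →
      IsImage P e → HS (cls P) = tau c e := fun P q e he hP => (hH P q e he hP).trans (h.T_eq e)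
  refine ⟨HS, ⟨fun x => ?_, hH'⟩, fun HS' h' => AddMonoidHom.ext fun x => ?_⟩
  · obtain ⟨F, -, h2⟩ := h.inFin HS hH' x
    exact summable_of_ne_finset_zero (s := F) fun C hC => by simp [h2 C hC]
  · refine K0_ind (p := fun x => HS' x = HS x) (by simp) (fun P => ?_)
      (fun x hx => by simp [hx]) (fun x y hx hy => by simp [hx, hy]) x
    obtain ⟨q, e, he, hP⟩ := exists_idem P
    exact (h'.2 P q e he hP).trans (hH' P q e he hP).symm

end Vale.Agent.P184K32
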